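import Vale.Agent.P164R.Main

open Vale.Agent.P164 Vale.Agent.P164R Set MeasureTheory ProbabilityTheory
open scoped NNReal

universe u

/-- For `0 < κ < 8` the SLE trace exists (standard Brownian motion exists, and for each Brownian
motion almost surely there is exactly one curve generating the Loewner chain), and its exact
Hausdorff gauge is `r^(1+κ/8) (log log (1/r))^(1/2-κ/16)`: this function is a gauge near `0` which
almost surely gives positive and finite measure to all segments; so does every comparable gauge;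
gauges of smaller order give measure zero, gauges of larger order (Schramm's candidate among them)
infinite measure, to all segments. -/
theorem Vale.Agent.Results.P164.TraceAndGauge.result (κ : ℝ) (h0 : 0 < κ) (h8 : κ < 8) :
    (∃ (Ω : Type) (_ : MeasurableSpace Ω) (P : Measure Ω) (B : ℝ≥0 → Ω → ℝ),
      IsProbabilityMeasure P ∧ IsBrownianReal B P) ∧
    (∃ h : ℝ → ℝ, IsGauge h ∧
      (∃ r₀ : ℝ, 0 < r₀ ∧ ∀ r : ℝ, 0 < r → r < r₀ →
        h r = r ^ (1 + κ / 8) * Real.log (Real.log (1 / r)) ^ (1 / 2 - κ / 16)) ∧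
      SegmentLaw.{u} κ h fun m => 0 < m ∧ m < ⊤) ∧
    ∀ k : ℝ → ℝ, IsGauge k →
      ((∃ c C r₀ : ℝ, 0 < c ∧ 0 < r₀ ∧ ∀ r : ℝ, 0 < r → r < r₀ →
          c * (r ^ (1 + κ / 8) * Real.log (Real.log (1 / r)) ^ (1 / 2 - κ / 16)) ≤ k r ∧
          k r ≤ C * (r ^ (1 + κ / 8) * Real.log (Real.log (1 / r)) ^ (1 / 2 - κ / 16))) →
        SegmentLaw.{u} κ k fun m => 0 < m ∧ m < ⊤) ∧
      ((∀ ε : ℝ, 0 < ε → ∃ δ : ℝ, 0 < δ ∧ ∀ r : ℝ, 0 < r → r ≤ δ →
          k r ≤ ε * (r ^ (1 + κ / 8) * Real.log (Real.log (1 / r)) ^ (1 / 2 - κ / 16))) →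
        SegmentLaw.{u} κ k fun m => m = 0) ∧
      ((∀ ε : ℝ, 0 < ε → ∃ δ : ℝ, 0 < δ ∧ ∀ r : ℝ, 0 < r → r ≤ δ →
          r ^ (1 + κ / 8) * Real.log (Real.log (1 / r)) ^ (1 / 2 - κ / 16) ≤ ε * k r) →
        SegmentLaw.{u} κ k fun m => m = ⊤) ∧
      ((∃ r₀ : ℝ, 0 < r₀ ∧ ∀ r : ℝ, 0 < r → r < r₀ →
          k r = r ^ (1 + κ / 8) * Real.log (Real.log (1 / r))) →
        SegmentLaw.{u} κ k fun m => m = ⊤) := by
  obtain ⟨⟨h, hg, hr, hgood⟩, hall⟩ :=
    full_of_core.{u} h0 h8 fun _ hg hr => good8 h0 h8 hg hr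
  refine ⟨Vale.Agent.P155.Tree.Bro.exists_isBrownianReal,
    ⟨h, hg, hr, segmentLaw_of h0 h8 hgood⟩, fun k hk => ?_⟩
  obtain ⟨h1, h2, h3, h4⟩ := hall k hk
  exact ⟨fun h => segmentLaw_of h0 h8 (h1 h), fun h => segmentLaw_of h0 h8 (h2 h),
    fun h => segmentLaw_of h0 h8 (h3 h), fun h => segmentLaw_of h0 h8 (h4 h)⟩
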